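import Vale.Agent.P243.Area
import Mathlib.MeasureTheory.Measure.Lebesgue.EqHaar
import Mathlib.LinearAlgebra.Determinant
import Mathlib.MeasureTheory.Measure.Haar.Unique
import Mathlib.MeasureTheory.Measure.Haar.NormedSpace
import Mathlib.Analysis.SpecialFunctions.Integrals.Basic

/-!
Relative areas of bases of cylinders, computed in a linear chart of the plane, and the areas of
the planar sets that occur.
-/

namespace Vale.Agent.P243.Half

open MeasureTheory Measure
open scoped InnerProductSpace ENNReal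

noncomputable section

theorem isAddHaar_plane : (volume : Measure (ℝ × ℝ)).IsAddHaarMeasure := by
  rw [Measure.volume_eq_prod]
  infer_instance

theorem isAddHaar_space : (volume : Measure ((ℝ × ℝ) × ℝ)).IsAddHaarMeasure := by
  have := isAddHaar_plane
  rw [Measure.volume_eq_prod]
  infer_instance

/-- In any linear chart of the plane orthogonal to the axis, a relative area is a ratio of
plane Lebesgue measures. -/
theorem relArea_le {u : R3} (hu : ‖u‖ = 1) (φ : R3 →ₗ[ℝ] ℝ × ℝ) (hφu : φ u = 0)
    (hker : ∀ x, φ x = 0 → ⟪u, x⟫_ℝ = 0 → x = 0) (K : Set R3) (T T0 : Set (ℝ × ℝ))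
    (hT0 : T0 ⊆ φ '' K) :
    planeArea u {b | ⟪u, b⟫_ℝ = 0 ∧ φ b ∈ T} / planeArea u (planeProj u '' K) ≤
      volume T / volume T0 := by
  have hproj : ∀ x, φ (planeProj u x) = φ x := fun x => by simp [planeProj, map_sub, hφu]
  have hperp : ∀ x, ⟪u, planeProj u x⟫_ℝ = 0 := fun x => by
    simp [planeProj, inner_sub_right, real_inner_smul_right, real_inner_self_eq_norm_sq, hu]
  let Φ : R3 →ₗ[ℝ] (ℝ × ℝ) × ℝ := φ.prod (innerₛₗ ℝ u)
  have hinj : Function.Injective Φ := by
    rw [injective_iff_map_eq_zero]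
    intro x hx
    exact hker x (congrArg Prod.fst hx) (congrArg Prod.snd hx)
  have hdim : Module.finrank ℝ R3 = Module.finrank ℝ ((ℝ × ℝ) × ℝ) := by simp
  let e : R3 ≃ₗ[ℝ] (ℝ × ℝ) × ℝ := Φ.linearEquivOfInjective hinj hdim
  have he : ∀ x, e x = (φ x, ⟪u, x⟫_ℝ) := fun x => rfl
  let ec := e.toContinuousLinearEquiv
  have : (Measure.map e (volume : Measure R3)).IsAddHaarMeasure :=
    ec.isAddHaarMeasure_map volume
  have := isAddHaar_space
  obtain ⟨c, hc0, hct, hc⟩ : ∃ c : ℝ≥0∞, c ≠ 0 ∧ c ≠ ∞ ∧
      ∀ A : Set ((ℝ × ℝ) × ℝ), volume (e ⁻¹' A) = c * volume A := by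
    refine ⟨addHaarScalarFactor (Measure.map e (volume : Measure R3)) volume,
      ENNReal.coe_ne_zero.2 (addHaarScalarFactor_pos_of_isAddHaarMeasure _ _).ne',
      ENNReal.coe_ne_top, fun A => ?_⟩
    have h := ec.toHomeomorph.toMeasurableEquiv.map_apply (μ := (volume : Measure R3)) A
    have h2 := isAddLeftInvariant_eq_smul (Measure.map e (volume : Measure R3)) volume
    change Measure.map e (volume : Measure R3) A = _ at h
    change volume (e ⁻¹' A) = _
    rw [h2] at h
    rw [Measure.smul_apply, ENNReal.smul_def, smul_eq_mul] at h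
    exact h.symm
  have hval : ∀ S : Set (ℝ × ℝ), volume (e ⁻¹' (S ×ˢ Set.Icc (0 : ℝ) 1)) = c * volume S := by
    intro S
    rw [hc, Measure.volume_eq_prod, Measure.prod_prod]
    simp
  have hnum : planeArea u {b | ⟪u, b⟫_ℝ = 0 ∧ φ b ∈ T} = c * volume T := by
    rw [← hval T, planeArea]
    congr 1
    ext x
    simp [he, hproj, hperp]
  have hden : c * volume T0 ≤ planeArea u (planeProj u '' K) := by
    rw [← hval T0, planeArea]
    refine measure_mono fun x hx => ?_
    obtain ⟨hx1, hx2⟩ : φ x ∈ T0 ∧ ⟪u, x⟫_ℝ ∈ Set.Icc (0 : ℝ) 1 := by simpa [he] using hx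
    obtain ⟨k, hk, hkx⟩ := hT0 hx1
    refine ⟨⟨k, hk, ?_⟩, hx2⟩
    exact sub_eq_zero.1 (hker _ (by rw [map_sub, hproj, hproj, hkx, sub_self])
      (by rw [inner_sub_right, hperp, hperp, sub_zero]))
  rw [hnum]
  exact (ENNReal.div_le_div_left hden _).trans (ENNReal.mul_div_mul_left _ _ hc0 hct).le

/-- A symmetric trapezoid with horizontal bases. -/
def strip (a b α β : ℝ) : Set (ℝ × ℝ) :=
  {p | a ≤ p.2 ∧ p.2 ≤ b ∧ -(α * p.2 + β) ≤ p.1 ∧ p.1 ≤ α * p.2 + β}

theorem measurableSet_strip (a b α β : ℝ) : MeasurableSet (strip a b α β) := by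
  refine IsClosed.measurableSet ?_
  exact (isClosed_le continuous_const continuous_snd).inter
    ((isClosed_le continuous_snd continuous_const).inter
      ((isClosed_le (by fun_prop) continuous_fst).inter
        (isClosed_le continuous_fst (by fun_prop))))

theorem volume_strip (a b α β : ℝ) (hab : a ≤ b) (ha : 0 ≤ α * a + β) (hb : 0 ≤ α * b + β) :
    volume (strip a b α β) = ENNReal.ofReal (α * (b ^ 2 - a ^ 2) + 2 * β * (b - a)) := by
  have hpos : ∀ z ∈ Set.Icc a b, 0 ≤ α * z + β := by
    intro z hz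
    rcases le_total 0 α with h | h <;> nlinarith [hz.1, hz.2]
  rw [Measure.volume_eq_prod, Measure.prod_apply_symm (measurableSet_strip a b α β)]
  have hsl : ∀ z : ℝ, volume ((fun x => (x, z)) ⁻¹' strip a b α β) =
      (Set.Icc a b).indicator (fun z => ENNReal.ofReal (2 * (α * z + β))) z := by
    intro z
    by_cases hz : z ∈ Set.Icc a b
    · have : (fun x => (x, z)) ⁻¹' strip a b α β = Set.Icc (-(α * z + β)) (α * z + β) := by
        ext x
        simp [strip, hz.1, hz.2]
      rw [this, Set.indicator_of_mem hz, Real.volume_Icc]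
      ring_nf
    · have : (fun x => (x, z)) ⁻¹' strip a b α β = ∅ := by
        ext x
        simp only [Set.mem_preimage, strip, Set.mem_setOf_eq, Set.mem_empty_iff_false, iff_false]
        rintro ⟨h1, h2, -⟩
        exact hz ⟨h1, h2⟩
      rw [this, Set.indicator_of_notMem hz, measure_empty]
  simp only [hsl]
  rw [lintegral_indicator measurableSet_Icc,
    ← ofReal_integral_eq_lintegral_ofReal (by
      exact (Continuous.continuousOn (by fun_prop)).integrableOn_Icc)
      (ae_restrict_of_forall_mem measurableSet_Icc fun z hz => by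
        simpa using mul_nonneg zero_le_two (hpos z hz))]
  congr 1
  rw [integral_Icc_eq_integral_Ioc, ← intervalIntegral.integral_of_le hab]
  have hi : IntervalIntegrable (fun x : ℝ => α * x) volume a b :=
    (Continuous.intervalIntegrable (by fun_prop) _ _)
  rw [intervalIntegral.integral_const_mul, intervalIntegral.integral_add hi
      intervalIntegrable_const, intervalIntegral.integral_const_mul, integral_id,
    intervalIntegral.integral_const, smul_eq_mul]
  ring

/-- The measure of the preimage of a set under an affine map of the plane. -/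
theorem volume_affine_preimage (a b c d e g : ℝ) (h : a * d - b * c ≠ 0) (A : Set (ℝ × ℝ)) :
    volume ((fun p : ℝ × ℝ => (a * p.1 + b * p.2 + e, c * p.1 + d * p.2 + g)) ⁻¹' A) =
      ENNReal.ofReal |(a * d - b * c)⁻¹| * volume A := by
  let L : ℝ × ℝ →ₗ[ℝ] ℝ × ℝ :=
    { toFun := fun p => (a * p.1 + b * p.2, c * p.1 + d * p.2)
      map_add' := fun p q => by ext <;> simp <;> ring
      map_smul' := fun r p => by ext <;> simp <;> ring }
  have hL : LinearMap.det L = a * d - b * c := by
    rw [← LinearMap.det_toMatrix (Module.Basis.finTwoProd ℝ), Matrix.det_fin_two]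
    simp [LinearMap.toMatrix_apply, L]
  have hdet : LinearMap.det L ≠ 0 := hL ▸ h
  have hset : (fun p : ℝ × ℝ => (a * p.1 + b * p.2 + e, c * p.1 + d * p.2 + g)) ⁻¹' A =
      L ⁻¹' ((fun q : ℝ × ℝ => q + (e, g)) ⁻¹' A) := by
    rfl
  have := isAddHaar_plane
  rw [hset, addHaar_preimage_linearMap volume hdet, hL, measure_preimage_add_right]

end

end Vale.Agent.P243.Half
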