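import Mathlib.Tactic.Linarith
import Mathlib.Data.Real.Basic

/-!
An explicit covering of the tetrahedron by ten cylinders, in coordinates.
-/

namespace Vale.Agent.P243.Half

noncomputable section

/-- The base of the two outer cylinders: a triangle. -/
def baseB (X Z : ℝ) : Prop :=
  -1 ≤ Z ∧ Z ≤ -(11893/20000) ∧ -(1 + Z) ≤ X ∧ X ≤ 1 + Z

/-- The base of the two middle cylinders: a rectangle. -/
def baseU (X Z : ℝ) : Prop :=
  -(11893/20000) ≤ Z ∧ Z ≤ -(3379/100000) ∧ -(79857/100000) ≤ X ∧ X ≤ (79857/100000)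

/-- First affine coordinate of the small triangle. -/
def coordS (X Y : ℝ) : ℝ := ((33671/100000) * (X - (-77123/100000)) - (6361/20000) * (Y - (-22883/100000))) / (6385047433/10000000000)

/-- Second affine coordinate of the small triangle. -/
def coordT (X Y : ℝ) : ℝ := ((48761/50000) * (X - (-77123/100000)) + (97513/100000) * (Y - (-22883/100000))) / (6385047433/10000000000)

/-- The base of the four skew cylinders: a triangle. -/
def baseP (X Y : ℝ) : Prop := 0 ≤ coordS X Y ∧ 0 ≤ coordT X Y ∧ coordS X Y + coordT X Y ≤ 1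

/-- The base of the two small cylinders: an isosceles triangle. -/
def baseX (Y Z : ℝ) : Prop :=
  -(2751/25000) ≤ Z ∧ Z ≤ (3457/100000) ∧ -((38984/14461) * (Z + (2751/25000))) ≤ Y ∧
    Y ≤ (38984/14461) * (Z + (2751/25000))

theorem sub0 (x y z : ℝ) (k1 : -x - y - z ≤ 1) (k2 : -x + y + z ≤ 1) (k3 : x - y + z ≤ 1)
    (k4 : x + y - z ≤ 1)
    (h1 : (2751/25000) < (-1) * z)
    :
    baseB (x + y) z ∨
      baseB (-y + x) (-z) ∨
      baseU (2 * x + y) z ∨
      baseU (2 * -y + x) (-z) ∨
      baseP (x - z) (y + 2 * z) ∨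
      baseP (-y - -z) (x + 2 * -z) ∨
      baseP (-x - z) (-y + 2 * z) ∨
      baseP (y - -z) (-x + 2 * -z) ∨
      baseX y z ∨
      baseX x (-z) := by
  rcases le_or_gt ((-1) * z) (11893/20000) with h2 | h2
  swap
  ·
    refine Or.inl ?_
    simp only [baseB]
    refine ⟨?_, ?_, ?_, ?_⟩ <;> linarith
  rcases le_or_gt ((2) * x + (1) * y) (79857/100000) with h3 | h3
  swap
  ·
    rcases le_or_gt ((3367100000/6385047433) * x + (-3180500000/6385047433) * y + (9728100000/6385047433) * z) (1869014718/6385047433) with h4 | h4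
    swap
    ·
      refine Or.inr (Or.inr (Or.inr (Or.inr (Or.inr (Or.inr (Or.inr (Or.inl ?_)))))))
      simp only [baseP, coordS, coordT]
      refine ⟨?_, ?_, ?_⟩ <;> linarith
    rcases le_or_gt ((-13119300000/6385047433) * x + (-6570800000/6385047433) * y + (22300000/6385047433) * z) (-5236546470/6385047433) with h5 | h5
    swap
    ·
      linarith
    refine Or.inr (Or.inr (Or.inr (Or.inr (Or.inr (Or.inr (Or.inl ?_))))))
    simp only [baseP, coordS, coordT]
    refine ⟨?_, ?_, ?_⟩ <;> linarith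
  rcases le_or_gt ((-2) * x + (-1) * y) (79857/100000) with h6 | h6
  swap
  ·
    rcases le_or_gt ((-3367100000/6385047433) * x + (3180500000/6385047433) * y + (9728100000/6385047433) * z) (1869014718/6385047433) with h7 | h7
    swap
    ·
      refine Or.inr (Or.inr (Or.inr (Or.inr (Or.inr (Or.inl ?_)))))
      simp only [baseP, coordS, coordT]
      refine ⟨?_, ?_, ?_⟩ <;> linarith
    rcases le_or_gt ((13119300000/6385047433) * x + (6570800000/6385047433) * y + (22300000/6385047433) * z) (-5236546470/6385047433) with h8 | h8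
    swap
    ·
      linarith
    refine Or.inr (Or.inr (Or.inr (Or.inr (Or.inl ?_))))
    simp only [baseP, coordS, coordT]
    refine ⟨?_, ?_, ?_⟩ <;> linarith
  refine Or.inr (Or.inr (Or.inl ?_))
  simp only [baseU]
  refine ⟨?_, ?_, ?_, ?_⟩ <;> linarith

theorem sub1 (x y z : ℝ) (k1 : -x - y - z ≤ 1) (k2 : -x + y + z ≤ 1) (k3 : x - y + z ≤ 1)
    (k4 : x + y - z ≤ 1)
    (h1 : (-1) * z ≤ (2751/25000))
    (h9 : (3457/100000) < (1) * z)
    (h10 : (1) * z ≤ (11893/20000))
    (h11 : (79857/100000) < (1) * x + (-2) * y)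
    :
    baseB (x + y) z ∨
      baseB (-y + x) (-z) ∨
      baseU (2 * x + y) z ∨
      baseU (2 * -y + x) (-z) ∨
      baseP (x - z) (y + 2 * z) ∨
      baseP (-y - -z) (x + 2 * -z) ∨
      baseP (-x - z) (-y + 2 * z) ∨
      baseP (y - -z) (-x + 2 * -z) ∨
      baseX y z ∨
      baseX x (-z) := by
  rcases le_or_gt ((-3180500000/6385047433) * x + (-3367100000/6385047433) * y + (-9728100000/6385047433) * z) (1869014718/6385047433) with h12 | h12
  swap
  ·
    rcases le_or_gt ((13119300000/6385047433) * x + (6570800000/6385047433) * y + (22300000/6385047433) * z) (-5236546470/6385047433) with h13 | h13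
    swap
    ·
      refine Or.inr (Or.inr (Or.inr (Or.inr (Or.inr (Or.inr (Or.inr (Or.inr (Or.inr (?_)))))))))
      simp only [baseX]
      refine ⟨?_, ?_, ?_, ?_⟩ <;> linarith
    refine Or.inr (Or.inr (Or.inr (Or.inr (Or.inl ?_))))
    simp only [baseP, coordS, coordT]
    refine ⟨?_, ?_, ?_⟩ <;> linarith
  rcases le_or_gt ((-6570800000/6385047433) * x + (13119300000/6385047433) * y + (-22300000/6385047433) * z) (-5236546470/6385047433) with h14 | h14
  swap
  ·
    linarith
  refine Or.inr (Or.inr (Or.inr (Or.inr (Or.inr (Or.inr (Or.inr (Or.inl ?_)))))))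
  simp only [baseP, coordS, coordT]
  refine ⟨?_, ?_, ?_⟩ <;> linarith

theorem sub2 (x y z : ℝ) (k1 : -x - y - z ≤ 1) (k2 : -x + y + z ≤ 1) (k3 : x - y + z ≤ 1)
    (k4 : x + y - z ≤ 1)
    (h1 : (-1) * z ≤ (2751/25000))
    (h9 : (3457/100000) < (1) * z)
    (h10 : (1) * z ≤ (11893/20000))
    (h11 : (1) * x + (-2) * y ≤ (79857/100000))
    (h15 : (79857/100000) < (-1) * x + (2) * y)
    :
    baseB (x + y) z ∨
      baseB (-y + x) (-z) ∨
      baseU (2 * x + y) z ∨
      baseU (2 * -y + x) (-z) ∨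
      baseP (x - z) (y + 2 * z) ∨
      baseP (-y - -z) (x + 2 * -z) ∨
      baseP (-x - z) (-y + 2 * z) ∨
      baseP (y - -z) (-x + 2 * -z) ∨
      baseX y z ∨
      baseX x (-z) := by
  rcases le_or_gt ((3180500000/6385047433) * x + (3367100000/6385047433) * y + (-9728100000/6385047433) * z) (1869014718/6385047433) with h16 | h16
  swap
  ·
    rcases le_or_gt ((-13119300000/6385047433) * x + (-6570800000/6385047433) * y + (22300000/6385047433) * z) (-5236546470/6385047433) with h17 | h17
    swap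
    ·
      refine Or.inr (Or.inr (Or.inr (Or.inr (Or.inr (Or.inr (Or.inr (Or.inr (Or.inr (?_)))))))))
      simp only [baseX]
      refine ⟨?_, ?_, ?_, ?_⟩ <;> linarith
    refine Or.inr (Or.inr (Or.inr (Or.inr (Or.inr (Or.inr (Or.inl ?_))))))
    simp only [baseP, coordS, coordT]
    refine ⟨?_, ?_, ?_⟩ <;> linarith
  rcases le_or_gt ((6570800000/6385047433) * x + (-13119300000/6385047433) * y + (-22300000/6385047433) * z) (-5236546470/6385047433) with h18 | h18
  swap
  ·
    linarith
  refine Or.inr (Or.inr (Or.inr (Or.inr (Or.inr (Or.inl ?_)))))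
  simp only [baseP, coordS, coordT]
  refine ⟨?_, ?_, ?_⟩ <;> linarith

theorem sub3 (x y z : ℝ) (k1 : -x - y - z ≤ 1) (k2 : -x + y + z ≤ 1) (k3 : x - y + z ≤ 1)
    (k4 : x + y - z ≤ 1)
    (h1 : (-1) * z ≤ (2751/25000))
    (h9 : (1) * z ≤ (3457/100000))
    (h19 : (13405623/312500000) < (14461/100000) * y + (-4873/12500) * z)
    (h20 : (-3379/100000) < (1) * z)
    :
    baseB (x + y) z ∨
      baseB (-y + x) (-z) ∨
      baseU (2 * x + y) z ∨
      baseU (2 * -y + x) (-z) ∨
      baseP (x - z) (y + 2 * z) ∨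
      baseP (-y - -z) (x + 2 * -z) ∨
      baseP (-x - z) (-y + 2 * z) ∨
      baseP (y - -z) (-x + 2 * -z) ∨
      baseX y z ∨
      baseX x (-z) := by
  rcases le_or_gt ((3180500000/6385047433) * x + (3367100000/6385047433) * y + (-9728100000/6385047433) * z) (1869014718/6385047433) with h21 | h21
  swap
  ·
    rcases le_or_gt ((-13119300000/6385047433) * x + (-6570800000/6385047433) * y + (22300000/6385047433) * z) (-5236546470/6385047433) with h22 | h22
    swap
    ·
      refine Or.inr (Or.inr (Or.inr (Or.inr (Or.inr (Or.inr (Or.inr (Or.inr (Or.inr (?_)))))))))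
      simp only [baseX]
      refine ⟨?_, ?_, ?_, ?_⟩ <;> linarith
    refine Or.inr (Or.inr (Or.inr (Or.inr (Or.inr (Or.inr (Or.inl ?_))))))
    simp only [baseP, coordS, coordT]
    refine ⟨?_, ?_, ?_⟩ <;> linarith
  rcases le_or_gt ((6570800000/6385047433) * x + (-13119300000/6385047433) * y + (-22300000/6385047433) * z) (-5236546470/6385047433) with h23 | h23
  swap
  ·
    rcases le_or_gt ((14461/100000) * x + (4873/12500) * z) (13405623/312500000) with h24 | h24
    swap
    ·
      rcases le_or_gt ((-13119300000/6385047433) * x + (-6570800000/6385047433) * y + (22300000/6385047433) * z) (-5236546470/6385047433) with h25 | h25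
      swap
      ·
        refine Or.inr (Or.inr (Or.inr (Or.inl ?_)))
        simp only [baseU]
        refine ⟨?_, ?_, ?_, ?_⟩ <;> linarith
      refine Or.inr (Or.inr (Or.inr (Or.inr (Or.inr (Or.inr (Or.inl ?_))))))
      simp only [baseP, coordS, coordT]
      refine ⟨?_, ?_, ?_⟩ <;> linarith
    refine Or.inr (Or.inr (Or.inr (Or.inr (Or.inr (Or.inr (Or.inr (Or.inr (Or.inr (?_)))))))))
    simp only [baseX]
    refine ⟨?_, ?_, ?_, ?_⟩ <;> linarith
  refine Or.inr (Or.inr (Or.inr (Or.inr (Or.inr (Or.inl ?_)))))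
  simp only [baseP, coordS, coordT]
  refine ⟨?_, ?_, ?_⟩ <;> linarith

theorem sub4 (x y z : ℝ) (k1 : -x - y - z ≤ 1) (k2 : -x + y + z ≤ 1) (k3 : x - y + z ≤ 1)
    (k4 : x + y - z ≤ 1)
    (h1 : (-1) * z ≤ (2751/25000))
    (h9 : (1) * z ≤ (3457/100000))
    (h19 : (13405623/312500000) < (14461/100000) * y + (-4873/12500) * z)
    :
    baseB (x + y) z ∨
      baseB (-y + x) (-z) ∨
      baseU (2 * x + y) z ∨
      baseU (2 * -y + x) (-z) ∨
      baseP (x - z) (y + 2 * z) ∨
      baseP (-y - -z) (x + 2 * -z) ∨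
      baseP (-x - z) (-y + 2 * z) ∨
      baseP (y - -z) (-x + 2 * -z) ∨
      baseX y z ∨
      baseX x (-z) := by
  rcases le_or_gt ((1) * z) (-3379/100000) with h20 | h20
  swap
  · exact sub3 x y z k1 k2 k3 k4 h1 h9 h19 h20
  rcases le_or_gt ((2) * x + (1) * y) (79857/100000) with h26 | h26
  swap
  ·
    rcases le_or_gt ((3367100000/6385047433) * x + (-3180500000/6385047433) * y + (9728100000/6385047433) * z) (1869014718/6385047433) with h27 | h27
    swap
    ·
      refine Or.inr (Or.inr (Or.inr (Or.inr (Or.inr (Or.inr (Or.inr (Or.inl ?_)))))))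
      simp only [baseP, coordS, coordT]
      refine ⟨?_, ?_, ?_⟩ <;> linarith
    refine Or.inr (Or.inr (Or.inr (Or.inr (Or.inr (Or.inr (Or.inl ?_))))))
    simp only [baseP, coordS, coordT]
    refine ⟨?_, ?_, ?_⟩ <;> linarith
  rcases le_or_gt ((-2) * x + (-1) * y) (79857/100000) with h28 | h28
  swap
  ·
    rcases le_or_gt ((6570800000/6385047433) * x + (-13119300000/6385047433) * y + (-22300000/6385047433) * z) (-5236546470/6385047433) with h29 | h29
    swap
    ·
      refine Or.inr (Or.inr (Or.inr (Or.inr (Or.inl ?_))))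
      simp only [baseP, coordS, coordT]
      refine ⟨?_, ?_, ?_⟩ <;> linarith
    refine Or.inr (Or.inr (Or.inr (Or.inr (Or.inr (Or.inl ?_)))))
    simp only [baseP, coordS, coordT]
    refine ⟨?_, ?_, ?_⟩ <;> linarith
  refine Or.inr (Or.inr (Or.inl ?_))
  simp only [baseU]
  refine ⟨?_, ?_, ?_, ?_⟩ <;> linarith

theorem sub5 (x y z : ℝ) (k1 : -x - y - z ≤ 1) (k2 : -x + y + z ≤ 1) (k3 : x - y + z ≤ 1)
    (k4 : x + y - z ≤ 1)
    (h1 : (-1) * z ≤ (2751/25000))
    (h9 : (1) * z ≤ (3457/100000))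
    (h19 : (14461/100000) * y + (-4873/12500) * z ≤ (13405623/312500000))
    (h30 : (13405623/312500000) < (-14461/100000) * y + (-4873/12500) * z)
    (h31 : (-3379/100000) < (1) * z)
    :
    baseB (x + y) z ∨
      baseB (-y + x) (-z) ∨
      baseU (2 * x + y) z ∨
      baseU (2 * -y + x) (-z) ∨
      baseP (x - z) (y + 2 * z) ∨
      baseP (-y - -z) (x + 2 * -z) ∨
      baseP (-x - z) (-y + 2 * z) ∨
      baseP (y - -z) (-x + 2 * -z) ∨
      baseX y z ∨
      baseX x (-z) := by
  rcases le_or_gt ((-3180500000/6385047433) * x + (-3367100000/6385047433) * y + (-9728100000/6385047433) * z) (1869014718/6385047433) with h32 | h32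
  swap
  ·
    rcases le_or_gt ((13119300000/6385047433) * x + (6570800000/6385047433) * y + (22300000/6385047433) * z) (-5236546470/6385047433) with h33 | h33
    swap
    ·
      refine Or.inr (Or.inr (Or.inr (Or.inr (Or.inr (Or.inr (Or.inr (Or.inr (Or.inr (?_)))))))))
      simp only [baseX]
      refine ⟨?_, ?_, ?_, ?_⟩ <;> linarith
    refine Or.inr (Or.inr (Or.inr (Or.inr (Or.inl ?_))))
    simp only [baseP, coordS, coordT]
    refine ⟨?_, ?_, ?_⟩ <;> linarith
  rcases le_or_gt ((-6570800000/6385047433) * x + (13119300000/6385047433) * y + (-22300000/6385047433) * z) (-5236546470/6385047433) with h34 | h34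
  swap
  ·
    rcases le_or_gt ((-14461/100000) * x + (4873/12500) * z) (13405623/312500000) with h35 | h35
    swap
    ·
      rcases le_or_gt ((13119300000/6385047433) * x + (6570800000/6385047433) * y + (22300000/6385047433) * z) (-5236546470/6385047433) with h36 | h36
      swap
      ·
        refine Or.inr (Or.inr (Or.inr (Or.inl ?_)))
        simp only [baseU]
        refine ⟨?_, ?_, ?_, ?_⟩ <;> linarith
      refine Or.inr (Or.inr (Or.inr (Or.inr (Or.inl ?_))))
      simp only [baseP, coordS, coordT]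
      refine ⟨?_, ?_, ?_⟩ <;> linarith
    refine Or.inr (Or.inr (Or.inr (Or.inr (Or.inr (Or.inr (Or.inr (Or.inr (Or.inr (?_)))))))))
    simp only [baseX]
    refine ⟨?_, ?_, ?_, ?_⟩ <;> linarith
  refine Or.inr (Or.inr (Or.inr (Or.inr (Or.inr (Or.inr (Or.inr (Or.inl ?_)))))))
  simp only [baseP, coordS, coordT]
  refine ⟨?_, ?_, ?_⟩ <;> linarith

theorem sub6 (x y z : ℝ) (k1 : -x - y - z ≤ 1) (k2 : -x + y + z ≤ 1) (k3 : x - y + z ≤ 1)
    (k4 : x + y - z ≤ 1)
    (h1 : (-1) * z ≤ (2751/25000))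
    (h9 : (1) * z ≤ (3457/100000))
    (h19 : (14461/100000) * y + (-4873/12500) * z ≤ (13405623/312500000))
    (h30 : (13405623/312500000) < (-14461/100000) * y + (-4873/12500) * z)
    :
    baseB (x + y) z ∨
      baseB (-y + x) (-z) ∨
      baseU (2 * x + y) z ∨
      baseU (2 * -y + x) (-z) ∨
      baseP (x - z) (y + 2 * z) ∨
      baseP (-y - -z) (x + 2 * -z) ∨
      baseP (-x - z) (-y + 2 * z) ∨
      baseP (y - -z) (-x + 2 * -z) ∨
      baseX y z ∨
      baseX x (-z) := by
  rcases le_or_gt ((1) * z) (-3379/100000) with h31 | h31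
  swap
  · exact sub5 x y z k1 k2 k3 k4 h1 h9 h19 h30 h31
  rcases le_or_gt ((2) * x + (1) * y) (79857/100000) with h37 | h37
  swap
  ·
    rcases le_or_gt ((-6570800000/6385047433) * x + (13119300000/6385047433) * y + (-22300000/6385047433) * z) (-5236546470/6385047433) with h38 | h38
    swap
    ·
      refine Or.inr (Or.inr (Or.inr (Or.inr (Or.inr (Or.inr (Or.inl ?_))))))
      simp only [baseP, coordS, coordT]
      refine ⟨?_, ?_, ?_⟩ <;> linarith
    refine Or.inr (Or.inr (Or.inr (Or.inr (Or.inr (Or.inr (Or.inr (Or.inl ?_)))))))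
    simp only [baseP, coordS, coordT]
    refine ⟨?_, ?_, ?_⟩ <;> linarith
  rcases le_or_gt ((-2) * x + (-1) * y) (79857/100000) with h39 | h39
  swap
  ·
    rcases le_or_gt ((-3367100000/6385047433) * x + (3180500000/6385047433) * y + (9728100000/6385047433) * z) (1869014718/6385047433) with h40 | h40
    swap
    ·
      refine Or.inr (Or.inr (Or.inr (Or.inr (Or.inr (Or.inl ?_)))))
      simp only [baseP, coordS, coordT]
      refine ⟨?_, ?_, ?_⟩ <;> linarith
    refine Or.inr (Or.inr (Or.inr (Or.inr (Or.inl ?_))))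
    simp only [baseP, coordS, coordT]
    refine ⟨?_, ?_, ?_⟩ <;> linarith
  refine Or.inr (Or.inr (Or.inl ?_))
  simp only [baseU]
  refine ⟨?_, ?_, ?_, ?_⟩ <;> linarith

/-- The ten cylinders cover the tetrahedron. -/
theorem cover (x y z : ℝ) (k1 : -x - y - z ≤ 1) (k2 : -x + y + z ≤ 1) (k3 : x - y + z ≤ 1)
    (k4 : x + y - z ≤ 1) :
    baseB (x + y) z ∨
      baseB (-y + x) (-z) ∨
      baseU (2 * x + y) z ∨
      baseU (2 * -y + x) (-z) ∨
      baseP (x - z) (y + 2 * z) ∨
      baseP (-y - -z) (x + 2 * -z) ∨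
      baseP (-x - z) (-y + 2 * z) ∨
      baseP (y - -z) (-x + 2 * -z) ∨
      baseX y z ∨
      baseX x (-z) := by
  rcases le_or_gt ((-1) * z) (2751/25000) with h1 | h1
  swap
  · exact sub0 x y z k1 k2 k3 k4 h1
  rcases le_or_gt ((1) * z) (3457/100000) with h9 | h9
  swap
  ·
    rcases le_or_gt ((1) * z) (11893/20000) with h10 | h10
    swap
    ·
      refine Or.inr (Or.inl ?_)
      simp only [baseB]
      refine ⟨?_, ?_, ?_, ?_⟩ <;> linarith
    rcases le_or_gt ((1) * x + (-2) * y) (79857/100000) with h11 | h11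
    swap
    · exact sub1 x y z k1 k2 k3 k4 h1 h9 h10 h11
    rcases le_or_gt ((-1) * x + (2) * y) (79857/100000) with h15 | h15
    swap
    · exact sub2 x y z k1 k2 k3 k4 h1 h9 h10 h11 h15
    refine Or.inr (Or.inr (Or.inr (Or.inl ?_)))
    simp only [baseU]
    refine ⟨?_, ?_, ?_, ?_⟩ <;> linarith
  rcases le_or_gt ((14461/100000) * y + (-4873/12500) * z) (13405623/312500000) with h19 | h19
  swap
  · exact sub4 x y z k1 k2 k3 k4 h1 h9 h19
  rcases le_or_gt ((-14461/100000) * y + (-4873/12500) * z) (13405623/312500000) with h30 | h30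
  swap
  · exact sub6 x y z k1 k2 k3 k4 h1 h9 h19 h30
  refine Or.inr (Or.inr (Or.inr (Or.inr (Or.inr (Or.inr (Or.inr (Or.inr (Or.inl ?_))))))))
  simp only [baseX]
  refine ⟨?_, ?_, ?_, ?_⟩ <;> linarith

end

end Vale.Agent.P243.Half
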