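import Vale.Agent.P243.Half.Area
import Vale.Agent.P243.Half.Cover

/-!
A covering of a tetrahedron by ten cylinders of total relative area below one half.
-/

namespace Vale.Agent.P243.Half

open MeasureTheory
open scoped InnerProductSpace ENNReal

noncomputable section

/-- The tetrahedron. -/
def tetra : Set R3 :=
  {v | -v 0 - v 1 - v 2 ≤ 1 ∧ -v 0 + v 1 + v 2 ≤ 1 ∧ v 0 - v 1 + v 2 ≤ 1 ∧ v 0 + v 1 - v 2 ≤ 1}

/-- A linear chart given by two rows. -/
def chart (a b : Fin 3 → ℝ) : R3 →ₗ[ℝ] ℝ × ℝ where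
  toFun v := (a 0 * v 0 + a 1 * v 1 + a 2 * v 2, b 0 * v 0 + b 1 * v 1 + b 2 * v 2)
  map_add' v w := by
    ext <;> simp <;> ring
  map_smul' r v := by
    ext <;> simp <;> ring

/-- A point of space given by coordinates. -/
def pt (x y z : ℝ) : R3 := WithLp.toLp 2 ![x, y, z]

/-- The direction of a cylinder. -/
def dir (w : Fin 3 → ℝ) : R3 := ‖pt (w 0) (w 1) (w 2)‖⁻¹ • pt (w 0) (w 1) (w 2)

/-- The base over a set in a chart. -/
def base (w a b : Fin 3 → ℝ) (T : Set (ℝ × ℝ)) : Set R3 :=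
  {v | ⟪dir w, v⟫_ℝ = 0 ∧ chart a b v ∈ T}

/-- A chart with its axis is admissible. -/
def Admissible (w a b : Fin 3 → ℝ) : Prop :=
  pt (w 0) (w 1) (w 2) ≠ 0 ∧ chart a b (pt (w 0) (w 1) (w 2)) = 0 ∧
    ∀ x y z : ℝ, a 0 * x + a 1 * y + a 2 * z = 0 → b 0 * x + b 1 * y + b 2 * z = 0 →
      w 0 * x + w 1 * y + w 2 * z = 0 → x = 0 ∧ y = 0 ∧ z = 0

theorem dir_norm {w a b : Fin 3 → ℝ} (h : Admissible w a b) : ‖dir w‖ = 1 :=
  norm_smul_inv_norm h.1

theorem mem_cylinder_base {w a b : Fin 3 → ℝ} (h : Admissible w a b) {T : Set (ℝ × ℝ)} {v : R3}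
    (hv : chart a b v ∈ T) : v ∈ cylinder (dir w) (base w a b T) := by
  have hu := dir_norm h
  have hz : chart a b (dir w) = 0 := by rw [dir, map_smul, h.2.1, smul_zero]
  refine ⟨planeProj (dir w) v, ⟨?_, ?_⟩, ⟪dir w, v⟫_ℝ, (sub_add_cancel _ _).symm⟩
  · simp [planeProj, inner_sub_right, real_inner_smul_right, hu]
  · rw [planeProj, map_sub, map_smul, hz, smul_zero, sub_zero]
    exact hv

theorem piece_le {w a b : Fin 3 → ℝ} (h : Admissible w a b) {T T0 : Set (ℝ × ℝ)} {r r0 : ℝ}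
    (hT : volume T = ENNReal.ofReal r) (hT0 : volume T0 = ENNReal.ofReal r0) (hr0 : 0 < r0)
    (hsub : T0 ⊆ chart a b '' tetra) :
    planeArea (dir w) (base w a b T) / planeArea (dir w) (planeProj (dir w) '' tetra) ≤
      ENNReal.ofReal (r / r0) := by
  rw [ENNReal.ofReal_div_of_pos hr0, ← hT, ← hT0]
  refine relArea_le (dir_norm h) _ (by rw [dir, map_smul, h.2.1, smul_zero]) (fun v hv hv' => ?_)
    tetra T T0 hsub
  have hw : ⟪pt (w 0) (w 1) (w 2), v⟫_ℝ = 0 := by
    rw [dir, real_inner_smul_left] at hv'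
    exact (mul_eq_zero.1 hv').resolve_left (inv_ne_zero (norm_ne_zero_iff.2 h.1))
  have h1 := congrArg Prod.fst hv
  have h2 := congrArg Prod.snd hv
  have h3 : w 0 * v 0 + w 1 * v 1 + w 2 * v 2 = 0 := by
    simp [pt, PiLp.inner_apply, Fin.sum_univ_three] at hw
    linarith
  obtain ⟨hx, hy, hz⟩ := h.2.2 (v 0) (v 1) (v 2) h1 h2 h3
  ext i
  fin_cases i <;> simpa

/-- The affine chart that straightens the small triangle. -/
def triMap (p : ℝ × ℝ) : ℝ × ℝ :=
  ((-6385100000/6385047433) * p.1 + (-12931800000/6385047433) * p.2 + (-7883564467/6385047433), (-13119300000/6385047433) * p.1 + (-6570800000/6385047433) * p.2 + (-5236546470/6385047433))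

/-- The small triangle. -/
def triP : Set (ℝ × ℝ) := triMap ⁻¹' strip 0 1 (-1) 1

/-- The shadow of the tetrahedron in the skew chart. -/
def shadowP : Set (ℝ × ℝ) :=
  (fun p : ℝ × ℝ => ((1 / 2) * p.1 + 0 * p.2 + 0, (1 / 4) * p.1 + (1 / 4) * p.2 + 1 / 4)) ⁻¹'
    strip 0 1 (-1) 1

theorem volume_triP : volume triP = ENNReal.ofReal (6385047433/20000000000) := by
  have h : triP = _ := rfl
  rw [triP]
  unfold triMap
  rw [volume_affine_preimage _ _ _ _ _ _ (by norm_num), volume_strip _ _ _ _ (by norm_num)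
    (by norm_num) (by norm_num), ← ENNReal.ofReal_mul (abs_nonneg _)]
  norm_num

theorem volume_shadowP : volume shadowP = ENNReal.ofReal 8 := by
  rw [shadowP, volume_affine_preimage _ _ _ _ _ _ (by norm_num), volume_strip _ _ _ _ (by norm_num)
    (by norm_num) (by norm_num), ← ENNReal.ofReal_mul (abs_nonneg _)]
  norm_num

theorem mem_triP {X Y : ℝ} (h : baseP X Y) : (X, Y) ∈ triP := by
  obtain ⟨h1, h2, h3⟩ := h
  simp only [coordS, coordT] at h1 h2 h3
  simp only [triP, triMap, strip, Set.mem_preimage, Set.mem_setOf_eq]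
  refine ⟨?_, ?_, ?_, ?_⟩ <;> linarith

theorem liftB {X Y : ℝ} (h : (X, Y) ∈ strip (-1) 1 1 1) :
    ∃ x y z : ℝ, pt x y z ∈ tetra ∧ X = x + y ∧ Y = z := by
  obtain ⟨h1, h2, h3, h4⟩ := h
  refine ⟨X / 2, X / 2, Y, ?_, by ring, rfl⟩
  refine ⟨?_, ?_, ?_, ?_⟩ <;> simp [pt] <;> linarith

theorem liftU {X Y : ℝ} (h : (X, Y) ∈ strip (-1) 1 1 2) :
    ∃ x y z : ℝ, pt x y z ∈ tetra ∧ X = 2 * x + y ∧ Y = z := by
  obtain ⟨h1, h2, h3, h4⟩ := h
  have hpos : 0 < Y + 2 := by linarith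
  obtain ⟨l, rfl⟩ : ∃ l, X = l * (Y + 2) := ⟨X / (Y + 2), (div_mul_cancel₀ _ hpos.ne').symm⟩
  have hl : -1 ≤ l ∧ l ≤ 1 := by constructor <;> nlinarith
  refine ⟨l, l * Y, Y, ?_, by ring, rfl⟩
  refine ⟨?_, ?_, ?_, ?_⟩ <;> simp [pt] <;> nlinarith [hl.1, hl.2]

theorem liftP {X Y : ℝ} (h : (X, Y) ∈ shadowP) :
    ∃ x y z : ℝ, pt x y z ∈ tetra ∧ X = x - z ∧ Y = y + 2 * z := by
  obtain ⟨h1, h2, h3, h4⟩ := h
  simp only at h1 h2 h3 h4
  refine ⟨(1 / 4) * X + (1 / 4) * Y + 1 / 4 + X / 2, 2 * ((1 / 4) * X + (1 / 4) * Y + 1 / 4) - 1,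
    (1 / 4) * X + (1 / 4) * Y + 1 / 4 - X / 2, ?_, by ring, by ring⟩
  refine ⟨?_, ?_, ?_, ?_⟩ <;> simp [pt] <;> linarith

theorem liftX {X Y : ℝ} (h : (X, Y) ∈ strip (-1) 1 0 1) :
    ∃ x y z : ℝ, pt x y z ∈ tetra ∧ X = y ∧ Y = z := by
  obtain ⟨h1, h2, h3, h4⟩ := h
  refine ⟨X * Y, X, Y, ?_, rfl, rfl⟩
  refine ⟨?_, ?_, ?_, ?_⟩ <;> simp [pt] <;> nlinarith

/-- The axes. -/
def axes : Fin 10 → Fin 3 → ℝ :=
  ![![1, -1, 0], ![1, 1, 0], ![1, -2, 0], ![2, 1, 0], ![1, -2, 1], ![2, 1, 1], ![-1, 2, 1], ![-2, -1, 1], ![1, 0, 0], ![0, 1, 0]]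

/-- The first rows of the charts. -/
def rowA : Fin 10 → Fin 3 → ℝ :=
  ![![1, 1, 0], ![1, -1, 0], ![2, 1, 0], ![1, -2, 0], ![1, 0, -1], ![0, -1, 1], ![-1, 0, -1], ![0, 1, 1], ![0, 1, 0], ![1, 0, 0]]

/-- The second rows of the charts. -/
def rowB : Fin 10 → Fin 3 → ℝ :=
  ![![0, 0, 1], ![0, 0, -1], ![0, 0, 1], ![0, 0, -1], ![0, 1, 2], ![1, 0, -2], ![0, -1, 2], ![-1, 0, -2], ![0, 0, 1], ![0, 0, -1]]

/-- The bases in the charts. -/
def shapes : Fin 10 → Set (ℝ × ℝ) :=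
  ![(strip (-1) (-(11893/20000)) 1 1),
    (strip (-1) (-(11893/20000)) 1 1),
    (strip (-(11893/20000)) (-(3379/100000)) 0 (79857/100000)),
    (strip (-(11893/20000)) (-(3379/100000)) 0 (79857/100000)),
    triP,
    triP,
    triP,
    triP,
    (strip (-(2751/25000)) (3457/100000) (38984/14461) (13405623/45190625)),
    (strip (-(2751/25000)) (3457/100000) (38984/14461) (13405623/45190625))]

theorem admissible (i : Fin 10) : Admissible (axes i) (rowA i) (rowB i) := by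
  fin_cases i <;>
    (refine ⟨fun h => ?_, ?_, fun x y z h1 h2 h3 => ?_⟩
     · have e0 := congrArg (fun v : R3 => v 0) h
       have e1 := congrArg (fun v : R3 => v 1) h
       simp [axes, pt] at e0 e1
     · simp [chart, pt, axes, rowA, rowB] <;> norm_num
     · simp [axes, rowA, rowB] at h1 h2 h3
       refine ⟨?_, ?_, ?_⟩ <;> linarith)

theorem piece0 :
    planeArea (dir (axes 0)) (base (axes 0) (rowA 0) (rowB 0) (shapes 0)) /
      planeArea (dir (axes 0)) (planeProj (dir (axes 0)) '' tetra) ≤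
    ENNReal.ofReal ((65723449/400000000) / 4) := by
  refine piece_le (admissible 0) ?_ (T0 := (strip (-1) 1 1 1)) ?_ (by norm_num) ?_
  · change volume (strip (-1) (-(11893/20000)) 1 1) = _
    rw [volume_strip _ _ _ _ (by norm_num) (by norm_num) (by norm_num)]
    norm_num
  · rw [volume_strip _ _ _ _ (by norm_num) (by norm_num) (by norm_num)]
    norm_num
  · rintro ⟨X, Y⟩ hXY
    obtain ⟨x, y, z, hm, hX, hY⟩ := liftB hXY

    refine ⟨pt x y z, ?_, ?_⟩
    · obtain ⟨m1, m2, m3, m4⟩ := hm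
      simp [pt] at m1 m2 m3 m4
      refine ⟨?_, ?_, ?_, ?_⟩ <;> simp [pt] <;> linarith
    · simp [chart, pt, rowA, rowB, hX, hY] <;> ring_nf

theorem piece1 :
    planeArea (dir (axes 1)) (base (axes 1) (rowA 1) (rowB 1) (shapes 1)) /
      planeArea (dir (axes 1)) (planeProj (dir (axes 1)) '' tetra) ≤
    ENNReal.ofReal ((65723449/400000000) / 4) := by
  refine piece_le (admissible 1) ?_ (T0 := (strip (-1) 1 1 1)) ?_ (by norm_num) ?_
  · change volume (strip (-1) (-(11893/20000)) 1 1) = _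
    rw [volume_strip _ _ _ _ (by norm_num) (by norm_num) (by norm_num)]
    norm_num
  · rw [volume_strip _ _ _ _ (by norm_num) (by norm_num) (by norm_num)]
    norm_num
  · rintro ⟨X, Y⟩ hXY
    obtain ⟨x, y, z, hm, hX, hY⟩ := liftB hXY

    refine ⟨pt y (-x) (-z), ?_, ?_⟩
    · obtain ⟨m1, m2, m3, m4⟩ := hm
      simp [pt] at m1 m2 m3 m4
      refine ⟨?_, ?_, ?_, ?_⟩ <;> simp [pt] <;> linarith
    · simp [chart, pt, rowA, rowB, hX, hY] <;> ring_nf

theorem piece2 :
    planeArea (dir (axes 2)) (base (axes 2) (rowA 2) (rowB 2) (shapes 2)) /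
      planeArea (dir (axes 2)) (planeProj (dir (axes 2)) '' tetra) ≤
    ENNReal.ofReal ((2239429851/2500000000) / 8) := by
  refine piece_le (admissible 2) ?_ (T0 := (strip (-1) 1 1 2)) ?_ (by norm_num) ?_
  · change volume (strip (-(11893/20000)) (-(3379/100000)) 0 (79857/100000)) = _
    rw [volume_strip _ _ _ _ (by norm_num) (by norm_num) (by norm_num)]
    norm_num
  · rw [volume_strip _ _ _ _ (by norm_num) (by norm_num) (by norm_num)]
    norm_num
  · rintro ⟨X, Y⟩ hXY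
    obtain ⟨x, y, z, hm, hX, hY⟩ := liftU hXY

    refine ⟨pt x y z, ?_, ?_⟩
    · obtain ⟨m1, m2, m3, m4⟩ := hm
      simp [pt] at m1 m2 m3 m4
      refine ⟨?_, ?_, ?_, ?_⟩ <;> simp [pt] <;> linarith
    · simp [chart, pt, rowA, rowB, hX, hY] <;> ring_nf

theorem piece3 :
    planeArea (dir (axes 3)) (base (axes 3) (rowA 3) (rowB 3) (shapes 3)) /
      planeArea (dir (axes 3)) (planeProj (dir (axes 3)) '' tetra) ≤
    ENNReal.ofReal ((2239429851/2500000000) / 8) := by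
  refine piece_le (admissible 3) ?_ (T0 := (strip (-1) 1 1 2)) ?_ (by norm_num) ?_
  · change volume (strip (-(11893/20000)) (-(3379/100000)) 0 (79857/100000)) = _
    rw [volume_strip _ _ _ _ (by norm_num) (by norm_num) (by norm_num)]
    norm_num
  · rw [volume_strip _ _ _ _ (by norm_num) (by norm_num) (by norm_num)]
    norm_num
  · rintro ⟨X, Y⟩ hXY
    obtain ⟨x, y, z, hm, hX, hY⟩ := liftU hXY

    refine ⟨pt y (-x) (-z), ?_, ?_⟩
    · obtain ⟨m1, m2, m3, m4⟩ := hm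
      simp [pt] at m1 m2 m3 m4
      refine ⟨?_, ?_, ?_, ?_⟩ <;> simp [pt] <;> linarith
    · simp [chart, pt, rowA, rowB, hX, hY] <;> ring_nf

theorem piece4 :
    planeArea (dir (axes 4)) (base (axes 4) (rowA 4) (rowB 4) (shapes 4)) /
      planeArea (dir (axes 4)) (planeProj (dir (axes 4)) '' tetra) ≤
    ENNReal.ofReal ((6385047433/20000000000) / 8) := by
  refine piece_le (admissible 4) volume_triP (T0 := shadowP) volume_shadowP (by norm_num) ?_
  · rintro ⟨X, Y⟩ hXY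
    obtain ⟨x, y, z, hm, hX, hY⟩ := liftP hXY

    refine ⟨pt x y z, ?_, ?_⟩
    · obtain ⟨m1, m2, m3, m4⟩ := hm
      simp [pt] at m1 m2 m3 m4
      refine ⟨?_, ?_, ?_, ?_⟩ <;> simp [pt] <;> linarith
    · simp [chart, pt, rowA, rowB, hX, hY] <;> ring_nf

theorem piece5 :
    planeArea (dir (axes 5)) (base (axes 5) (rowA 5) (rowB 5) (shapes 5)) /
      planeArea (dir (axes 5)) (planeProj (dir (axes 5)) '' tetra) ≤
    ENNReal.ofReal ((6385047433/20000000000) / 8) := by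
  refine piece_le (admissible 5) volume_triP (T0 := shadowP) volume_shadowP (by norm_num) ?_
  · rintro ⟨X, Y⟩ hXY
    obtain ⟨x, y, z, hm, hX, hY⟩ := liftP hXY

    refine ⟨pt y (-x) (-z), ?_, ?_⟩
    · obtain ⟨m1, m2, m3, m4⟩ := hm
      simp [pt] at m1 m2 m3 m4
      refine ⟨?_, ?_, ?_, ?_⟩ <;> simp [pt] <;> linarith
    · simp [chart, pt, rowA, rowB, hX, hY] <;> ring_nf

theorem piece6 :
    planeArea (dir (axes 6)) (base (axes 6) (rowA 6) (rowB 6) (shapes 6)) /
      planeArea (dir (axes 6)) (planeProj (dir (axes 6)) '' tetra) ≤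
    ENNReal.ofReal ((6385047433/20000000000) / 8) := by
  refine piece_le (admissible 6) volume_triP (T0 := shadowP) volume_shadowP (by norm_num) ?_
  · rintro ⟨X, Y⟩ hXY
    obtain ⟨x, y, z, hm, hX, hY⟩ := liftP hXY

    refine ⟨pt (-x) (-y) z, ?_, ?_⟩
    · obtain ⟨m1, m2, m3, m4⟩ := hm
      simp [pt] at m1 m2 m3 m4
      refine ⟨?_, ?_, ?_, ?_⟩ <;> simp [pt] <;> linarith
    · simp [chart, pt, rowA, rowB, hX, hY] <;> ring_nf

theorem piece7 :
    planeArea (dir (axes 7)) (base (axes 7) (rowA 7) (rowB 7) (shapes 7)) /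
      planeArea (dir (axes 7)) (planeProj (dir (axes 7)) '' tetra) ≤
    ENNReal.ofReal ((6385047433/20000000000) / 8) := by
  refine piece_le (admissible 7) volume_triP (T0 := shadowP) volume_shadowP (by norm_num) ?_
  · rintro ⟨X, Y⟩ hXY
    obtain ⟨x, y, z, hm, hX, hY⟩ := liftP hXY

    refine ⟨pt (-y) x (-z), ?_, ?_⟩
    · obtain ⟨m1, m2, m3, m4⟩ := hm
      simp [pt] at m1 m2 m3 m4
      refine ⟨?_, ?_, ?_, ?_⟩ <;> simp [pt] <;> linarith
    · simp [chart, pt, rowA, rowB, hX, hY] <;> ring_nf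

theorem piece8 :
    planeArea (dir (axes 8)) (base (axes 8) (rowA 8) (rowB 8) (shapes 8)) /
      planeArea (dir (axes 8)) (planeProj (dir (axes 8)) '' tetra) ≤
    ENNReal.ofReal ((70468453/1250000000) / 4) := by
  refine piece_le (admissible 8) ?_ (T0 := (strip (-1) 1 0 1)) ?_ (by norm_num) ?_
  · change volume (strip (-(2751/25000)) (3457/100000) (38984/14461) (13405623/45190625)) = _
    rw [volume_strip _ _ _ _ (by norm_num) (by norm_num) (by norm_num)]
    norm_num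
  · rw [volume_strip _ _ _ _ (by norm_num) (by norm_num) (by norm_num)]
    norm_num
  · rintro ⟨X, Y⟩ hXY
    obtain ⟨x, y, z, hm, hX, hY⟩ := liftX hXY

    refine ⟨pt x y z, ?_, ?_⟩
    · obtain ⟨m1, m2, m3, m4⟩ := hm
      simp [pt] at m1 m2 m3 m4
      refine ⟨?_, ?_, ?_, ?_⟩ <;> simp [pt] <;> linarith
    · simp [chart, pt, rowA, rowB, hX, hY] <;> ring_nf

theorem piece9 :
    planeArea (dir (axes 9)) (base (axes 9) (rowA 9) (rowB 9) (shapes 9)) /
      planeArea (dir (axes 9)) (planeProj (dir (axes 9)) '' tetra) ≤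
    ENNReal.ofReal ((70468453/1250000000) / 4) := by
  refine piece_le (admissible 9) ?_ (T0 := (strip (-1) 1 0 1)) ?_ (by norm_num) ?_
  · change volume (strip (-(2751/25000)) (3457/100000) (38984/14461) (13405623/45190625)) = _
    rw [volume_strip _ _ _ _ (by norm_num) (by norm_num) (by norm_num)]
    norm_num
  · rw [volume_strip _ _ _ _ (by norm_num) (by norm_num) (by norm_num)]
    norm_num
  · rintro ⟨X, Y⟩ hXY
    obtain ⟨x, y, z, hm, hX, hY⟩ := liftX hXY

    refine ⟨pt y (-x) (-z), ?_, ?_⟩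
    · obtain ⟨m1, m2, m3, m4⟩ := hm
      simp [pt] at m1 m2 m3 m4
      refine ⟨?_, ?_, ?_, ?_⟩ <;> simp [pt] <;> linarith
    · simp [chart, pt, rowA, rowB, hX, hY] <;> ring_nf

theorem covers : tetra ⊆ ⋃ i, cylinder (dir (axes i)) (base (axes i) (rowA i) (rowB i) (shapes i)) := by
  rintro v ⟨k1, k2, k3, k4⟩
  refine Set.mem_iUnion.2 ?_
  rcases cover (v 0) (v 1) (v 2) k1 k2 k3 k4 with h | h | h | h | h | h | h | h | h | h
  · refine ⟨0, mem_cylinder_base (admissible 0) ?_⟩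
    obtain ⟨h1, h2, h3, h4⟩ := h
    simp [chart, rowA, rowB, shapes, strip]
    refine ⟨?_, ?_, ?_, ?_⟩ <;> linarith
  · refine ⟨1, mem_cylinder_base (admissible 1) ?_⟩
    obtain ⟨h1, h2, h3, h4⟩ := h
    simp [chart, rowA, rowB, shapes, strip]
    refine ⟨?_, ?_, ?_, ?_⟩ <;> linarith
  · refine ⟨2, mem_cylinder_base (admissible 2) ?_⟩
    obtain ⟨h1, h2, h3, h4⟩ := h
    simp [chart, rowA, rowB, shapes, strip]
    refine ⟨?_, ?_, ?_, ?_⟩ <;> linarith
  · refine ⟨3, mem_cylinder_base (admissible 3) ?_⟩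
    obtain ⟨h1, h2, h3, h4⟩ := h
    simp [chart, rowA, rowB, shapes, strip]
    refine ⟨?_, ?_, ?_, ?_⟩ <;> linarith
  · refine ⟨4, mem_cylinder_base (admissible 4) ?_⟩
    change chart _ _ v ∈ triP
    convert mem_triP h using 1
    ext <;> simp [chart, rowA, rowB] <;> ring
  · refine ⟨5, mem_cylinder_base (admissible 5) ?_⟩
    change chart _ _ v ∈ triP
    convert mem_triP h using 1
    ext <;> simp [chart, rowA, rowB] <;> ring
  · refine ⟨6, mem_cylinder_base (admissible 6) ?_⟩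
    change chart _ _ v ∈ triP
    convert mem_triP h using 1
    ext <;> simp [chart, rowA, rowB] <;> ring
  · refine ⟨7, mem_cylinder_base (admissible 7) ?_⟩
    change chart _ _ v ∈ triP
    convert mem_triP h using 1
    ext <;> simp [chart, rowA, rowB] <;> ring
  · refine ⟨8, mem_cylinder_base (admissible 8) ?_⟩
    obtain ⟨h1, h2, h3, h4⟩ := h
    simp [chart, rowA, rowB, shapes, strip]
    refine ⟨?_, ?_, ?_, ?_⟩ <;> linarith
  · refine ⟨9, mem_cylinder_base (admissible 9) ?_⟩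
    obtain ⟨h1, h2, h3, h4⟩ := h
    simp [chart, rowA, rowB, shapes, strip]
    refine ⟨?_, ?_, ?_, ?_⟩ <;> linarith

theorem measurable_shapes (i : Fin 10) : MeasurableSet (shapes i) := by
  have hm : MeasurableSet triP :=
    (measurableSet_strip 0 1 (-1) 1).preimage (by unfold triMap; fun_prop)
  fin_cases i <;> first | exact hm | exact measurableSet_strip _ _ _ _

theorem measurable_base (i : Fin 10) :
    MeasurableSet (base (axes i) (rowA i) (rowB i) (shapes i)) :=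
  ((isClosed_eq (continuous_const.inner continuous_id) continuous_const).measurableSet).inter
    ((measurable_shapes i).preimage
      (LinearMap.continuous_of_finiteDimensional (chart (rowA i) (rowB i))).measurable)

theorem relative_sum_le :
    ∑ i, planeArea (dir (axes i)) (base (axes i) (rowA i) (rowB i) (shapes i)) /
      planeArea (dir (axes i)) (planeProj (dir (axes i)) '' tetra) ≤ ENNReal.ofReal (247 / 500) := by
  simp only [Fin.sum_univ_succ, Fin.sum_univ_zero, add_zero]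
  refine (add_le_add piece0 <| add_le_add piece1 <| add_le_add piece2 <| add_le_add piece3 <|
    add_le_add piece4 <| add_le_add piece5 <| add_le_add piece6 <| add_le_add piece7 <|
    add_le_add piece8 piece9).trans ?_
  simp (disch := norm_num) only [← ENNReal.ofReal_add]
  exact ENNReal.ofReal_le_ofReal (by norm_num)

theorem tetra_convex : Convex ℝ tetra := by
  intro v hv w hw a b ha hb hab
  simp only [tetra, Set.mem_setOf_eq] at hv hw ⊢
  simp
  refine ⟨?_, ?_, ?_, ?_⟩ <;> nlinarith [hv.1, hv.2.1, hv.2.2.1, hv.2.2.2, hw.1, hw.2.1, hw.2.2.1, hw.2.2.2]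

theorem continuous_coord (i : Fin 3) : Continuous fun v : R3 => v i := by fun_prop

theorem tetra_closed : IsClosed tetra := by
  have c := continuous_coord
  simp only [tetra, Set.setOf_and]
  refine IsClosed.inter ?_ (IsClosed.inter ?_ (IsClosed.inter ?_ ?_)) <;>
    exact isClosed_le (by fun_prop) continuous_const

theorem tetra_compact : IsCompact tetra := by
  refine (isCompact_closedBall (0 : R3) 2).of_isClosed_subset tetra_closed ?_
  rintro v ⟨h1, h2, h3, h4⟩
  rw [mem_closedBall_zero_iff, EuclideanSpace.norm_eq, Real.sqrt_le_left (by norm_num)]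
  simp [Fin.sum_univ_three]
  nlinarith [sq_nonneg (v 0)]

theorem tetra_interior : (interior tetra).Nonempty := by
  refine ⟨0, mem_interior.2 ⟨Metric.ball 0 (1 / 3), ?_, Metric.isOpen_ball, by simp⟩⟩
  intro v hv
  rw [mem_ball_zero_iff] at hv
  have hb : ∀ i, |v i| ≤ 1 / 3 := fun i => (PiLp.norm_apply_le v i).trans hv.le
  obtain ⟨a0, b0⟩ := abs_le.1 (hb 0)
  obtain ⟨a1, b1⟩ := abs_le.1 (hb 1)
  obtain ⟨a2, b2⟩ := abs_le.1 (hb 2)
  refine ⟨?_, ?_, ?_, ?_⟩ <;> linarith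

end

end Vale.Agent.P243.Half
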